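import Mathlib

/-!
# P207, surfaces: Bernstein estimates for sums of squares of derivations
-/

noncomputable section

namespace Vale.Agent.P207Z.Pde

open Finset

/-- an algebra of functions with derivations, evaluations and the maximum principle -/
structure DS (ι N A : Type) [Fintype ι] [CommRing A] [Algebra ℝ A] where
  X : ι → Derivation ℝ A A
  c : ι → ι → ι → A
  brk : ∀ a b f, X a (X b f) - X b (X a f) = ∑ k, c a b k * X k f
  ev : N → A →ₐ[ℝ] ℝ
  mx : ∀ f : A, ∃ p, (∀ q, ev q f ≤ ev p f) ∧ ev p (∑ a, X a (X a f)) ≤ 0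

namespace DS

variable {ι N A : Type} [Fintype ι] [CommRing A] [Algebra ℝ A] (S : DS ι N A)

/-- the sum of squares -/
def lp : A →ₗ[ℝ] A := ∑ a, (S.X a).toLinearMap ∘ₗ (S.X a).toLinearMap

lemma lp_apply (u : A) : S.lp u = ∑ a, S.X a (S.X a u) := by simp [lp, LinearMap.sum_apply]

/-- the sum of the products of all derivatives of order `≤ s` -/
def G : ℕ → A →ₗ[ℝ] A →ₗ[ℝ] A
  | 0 => LinearMap.mul ℝ A
  | s + 1 => LinearMap.mul ℝ A + ∑ a, (G s).compl₁₂ (S.X a).toLinearMap (S.X a).toLinearMap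

lemma G_zero (u v : A) : S.G 0 u v = u * v := rfl

lemma G_succ (s : ℕ) (u v : A) :
    S.G (s + 1) u v = u * v + ∑ a, S.G s (S.X a u) (S.X a v) := by
  simp [G, LinearMap.sum_apply]

lemma G_comm (s : ℕ) (u v : A) : S.G s u v = S.G s v u := by
  induction s generalizing u v with
  | zero => exact mul_comm u v
  | succ s ih => simp only [G_succ, mul_comm u v, ih (S.X _ u)]

/-- the terms with the sum of squares outside -/
def T : ℕ → A → A
  | 0, v => v * S.lp v
  | s + 1, v => v * S.lp v + ∑ a, T s (S.X a v)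

lemma lp_sq (v : A) : S.lp (v * v) = 2 * ∑ a, S.X a v * S.X a v + 2 * (v * S.lp v) := by
  simp only [lp_apply, Derivation.leibniz, smul_eq_mul, map_add, mul_sum, ← sum_add_distrib]
  exact sum_congr rfl fun a _ => by ring

lemma lp_G (s : ℕ) (v : A) :
    S.lp (S.G s v v) = 2 * (S.G (s + 1) v v - v * v) + 2 * S.T s v := by
  induction s generalizing v with
  | zero => rw [G_succ, G_zero, lp_sq]; simp only [G_zero, T]; ring
  | succ s ih =>
    rw [G_succ, map_add, map_sum, lp_sq, G_succ (s := s + 1)]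
    simp only [ih, T, sum_add_distrib, ← mul_sum, sum_sub_distrib]
    ring

/-- the value of the square of the derivatives -/
def r (s : ℕ) (u : A) (p : N) : ℝ := S.ev p (S.G s u u)

lemma r_zero (u : A) (p : N) : S.r 0 u p = S.ev p u ^ 2 := by simp [r, G_zero, sq]

lemma r_succ (s : ℕ) (u : A) (p : N) :
    S.r (s + 1) u p = S.ev p u ^ 2 + ∑ a, S.r s (S.X a u) p := by
  simp [r, G_succ, sq]

lemma r_nonneg (s : ℕ) (u : A) (p : N) : 0 ≤ S.r s u p := by
  induction s generalizing u with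
  | zero => rw [r_zero]; positivity
  | succ s ih => rw [r_succ]; exact add_nonneg (sq_nonneg _) (sum_nonneg fun a _ => ih _)

lemma sum_r_le (s : ℕ) (u : A) (p : N) : ∑ a, S.r s (S.X a u) p ≤ S.r (s + 1) u p := by
  rw [r_succ]; linarith [sq_nonneg (S.ev p u)]

lemma r_X_le (s : ℕ) (a : ι) (u : A) (p : N) : S.r s (S.X a u) p ≤ S.r (s + 1) u p :=
  (single_le_sum (f := fun a => S.r s (S.X a u) p) (fun _ _ => S.r_nonneg _ _ _)
    (mem_univ a)).trans (S.sum_r_le s u p)

lemma sq_le_r (s : ℕ) (u : A) (p : N) : S.ev p u ^ 2 ≤ S.r s u p := by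
  cases s with
  | zero => rw [r_zero]
  | succ s => rw [r_succ]; exact le_add_of_nonneg_right (sum_nonneg fun a _ => S.r_nonneg _ _ _)

lemma r_mono (s : ℕ) (u : A) (p : N) : S.r s u p ≤ S.r (s + 1) u p := by
  induction s generalizing u with
  | zero => rw [r_zero]; exact S.sq_le_r _ _ _
  | succ s ih => rw [r_succ, r_succ]; exact add_le_add le_rfl (sum_le_sum fun a _ => ih _)

lemma r_quad (s : ℕ) (u w : A) (p : N) (x : ℝ) : S.r s (u + x • w) p =
    S.r s u p + 2 * x * S.ev p (S.G s u w) + x ^ 2 * S.r s w p := by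
  simp only [r, map_add, map_smul, LinearMap.add_apply, LinearMap.smul_apply, smul_eq_mul,
    S.G_comm s w u]
  ring

lemma r_smul (s : ℕ) (x : ℝ) (u : A) (p : N) : S.r s (x • u) p = x ^ 2 * S.r s u p := by
  simp only [r, map_smul, LinearMap.smul_apply, smul_eq_mul]
  ring

lemma r_add (s : ℕ) (u w : A) (p : N) : S.r s (u + w) p ≤ 2 * S.r s u p + 2 * S.r s w p := by
  have h1 := S.r_quad s u w p 1
  have h2 := S.r_quad s u w p (-1)
  rw [one_smul] at h1
  linarith [S.r_nonneg s (u + (-1 : ℝ) • w) p]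

lemma r_mul (s : ℕ) (u v : A) (p : N) : S.r s (u * v) p ≤ 5 ^ s * (S.r s u p * S.r s v p) := by
  induction s generalizing u v with
  | zero => simp only [r_zero, map_mul]; nlinarith
  | succ s ih =>
    have h1 : ∑ a, S.r s (S.X a (u * v)) p ≤ 2 * 5 ^ s * (S.r s u p * ∑ a, S.r s (S.X a v) p) +
        2 * 5 ^ s * (S.r s v p * ∑ a, S.r s (S.X a u) p) := by
      simp only [mul_sum, ← sum_add_distrib]
      refine sum_le_sum fun a _ => ?_
      rw [Derivation.leibniz, smul_eq_mul, smul_eq_mul]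
      linarith [S.r_add s (u * S.X a v) (v * S.X a u) p, ih u (S.X a v), ih v (S.X a u)]
    have n1 := S.r_nonneg (s + 1) u p
    have n2 := S.r_nonneg (s + 1) v p
    have h2 : S.r s u p * ∑ a, S.r s (S.X a v) p ≤ S.r (s + 1) u p * S.r (s + 1) v p :=
      mul_le_mul (S.r_mono _ _ _) (S.sum_r_le _ _ _) (sum_nonneg fun a _ => S.r_nonneg _ _ _) n1
    have h3 : S.r s v p * ∑ a, S.r s (S.X a u) p ≤ S.r (s + 1) v p * S.r (s + 1) u p :=
      mul_le_mul (S.r_mono _ _ _) (S.sum_r_le _ _ _) (sum_nonneg fun a _ => S.r_nonneg _ _ _) n2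
    have h4 : S.ev p u ^ 2 * S.ev p v ^ 2 ≤ S.r (s + 1) u p * S.r (s + 1) v p :=
      mul_le_mul (S.sq_le_r _ _ _) (S.sq_le_r _ _ _) (sq_nonneg _) n1
    have h5 : (1 : ℝ) ≤ 5 ^ s := one_le_pow₀ (by norm_num)
    rw [S.r_succ s (u * v), map_mul, mul_pow, pow_succ (5 : ℝ)]
    nlinarith [mul_nonneg n1 n2, mul_le_mul_of_nonneg_left h2 (zero_le_one.trans h5),
      mul_le_mul_of_nonneg_left h3 (zero_le_one.trans h5)]

lemma exists_bd (s : ℕ) (u : A) : ∃ M, 0 ≤ M ∧ ∀ p, S.r s u p ≤ M :=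
  let ⟨p, h, _⟩ := S.mx (S.G s u u)
  ⟨_, S.r_nonneg s u p, h⟩

/-- operators of order `k` -/
def Ord (k : ℕ) (D : A → A) : Prop :=
  ∀ s, ∃ C, 0 ≤ C ∧ ∀ v p, S.r s (D v) p ≤ C * S.r (s + k) v p

variable {S}

lemma Ord.add {k : ℕ} {D E : A → A} (h : S.Ord k D) (h' : S.Ord k E) :
    S.Ord k fun v => D v + E v := fun s => by
  obtain ⟨C, h0, h1⟩ := h s
  obtain ⟨C', h0', h1'⟩ := h' s
  exact ⟨2 * C + 2 * C', by positivity, fun v p => by
    linarith [S.r_add s (D v) (E v) p, h1 v p, h1' v p]⟩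

lemma Ord.sum {k : ℕ} {D : ι → A → A} (h : ∀ a, S.Ord k (D a)) :
    S.Ord k fun v => ∑ a, D a v := by
  classical
  induction (univ : Finset ι) using Finset.induction_on with
  | empty => exact fun s => ⟨0, le_rfl, fun v p => by simp [r]⟩
  | insert a F ha ih => simpa only [sum_insert ha] using (h a).add ih

lemma Ord.comp {k l : ℕ} {D E : A → A} (h : S.Ord k D) (h' : S.Ord l E) :
    S.Ord (k + l) fun v => D (E v) := fun s => by
  obtain ⟨C, h0, h1⟩ := h s
  obtain ⟨C', h0', h1'⟩ := h' (s + k)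
  exact ⟨C * C', by positivity, fun v p => by
    rw [← add_assoc, mul_assoc]
    exact (h1 _ p).trans (mul_le_mul_of_nonneg_left (h1' v p) h0)⟩

lemma ord_X (a : ι) : S.Ord 1 (S.X a) := fun s => ⟨1, zero_le_one, fun v p => by
  rw [one_mul]; exact S.r_X_le s a v p⟩

lemma ord_mul (u : A) : S.Ord 0 fun v => u * v := fun s => by
  obtain ⟨M, h0, h⟩ := S.exists_bd s u
  refine ⟨5 ^ s * M, by positivity, fun v p => (S.r_mul s u v p).trans ?_⟩
  rw [mul_assoc]
  exact mul_le_mul_of_nonneg_left (mul_le_mul_of_nonneg_right (h p) (S.r_nonneg _ _ _))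
    (by positivity)

variable (S)

lemma ord_comm (a : ι) : S.Ord 2 fun v => S.lp (S.X a v) - S.X a (S.lp v) := by
  have h1 : ∀ b, S.Ord 1 fun v => ∑ k, S.c b a k * S.X k v := fun b =>
    Ord.sum fun k => (ord_mul _).comp (ord_X k)
  have h2 := Ord.sum fun b => ((ord_X b).comp (h1 b)).add ((h1 b).comp (ord_X b))
  have e : (fun v => S.lp (S.X a v) - S.X a (S.lp v)) = fun v => ∑ b,
      (S.X b (∑ k, S.c b a k * S.X k v) + ∑ k, S.c b a k * S.X k (S.X b v)) := by
    funext v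
    simp only [lp_apply, ← S.brk, map_sub]
    rw [map_sum, ← sum_sub_distrib]
    exact sum_congr rfl fun b _ => by ring
  rwa [e]

lemma T_ge (s : ℕ) : ∀ δ : ℝ, 0 < δ → ∃ C, 0 ≤ C ∧ ∀ v p, S.ev p (S.G s v (S.lp v)) -
    δ * S.r (s + 1) v p - C * S.r s v p ≤ S.ev p (S.T s v) := by
  induction s with
  | zero =>
    exact fun δ hδ => ⟨0, le_rfl, fun v p => by
      have := mul_nonneg hδ.le (S.r_nonneg (0 + 1) v p)
      simp only [G_zero, T]
      linarith⟩
  | succ s ih =>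
    intro δ hδ
    obtain ⟨C, h0, h1⟩ := ih (δ / 2) (by positivity)
    choose K K0 hK using fun a => S.ord_comm a s
    have k0 : 0 ≤ ∑ a, K a := sum_nonneg fun a _ => K0 a
    set x := δ / (∑ a, K a + 1) with hx
    have x0 : 0 < x := by positivity
    have x1 : x * ∑ a, K a ≤ δ := by
      rw [hx, div_mul_eq_mul_div, div_le_iff₀ (by positivity)]; nlinarith
    refine ⟨C + x⁻¹, by positivity, fun v p => ?_⟩
    have h2 : ∀ a, S.ev p (S.G s (S.X a v) (S.X a (S.lp v))) -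
        δ / 2 * S.r (s + 1) (S.X a v) p - (C + x⁻¹) * S.r s (S.X a v) p -
        x / 2 * S.r (s + 2) v p * K a ≤ S.ev p (S.T s (S.X a v)) := fun a => by
      have h3 := S.r_quad s (S.X a v) (S.lp (S.X a v) - S.X a (S.lp v)) p x
      have h4 := S.r_nonneg s (S.X a v + x • (S.lp (S.X a v) - S.X a (S.lp v))) p
      have h5 := mul_le_mul_of_nonneg_left (hK a v p) (sq_nonneg x)
      have h6 := S.r_nonneg s (S.X a v) p
      rw [map_sub, map_sub] at h3
      refine le_trans ?_ (h1 (S.X a v) p)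
      have h7 : x * (x⁻¹ * S.r s (S.X a v) p) = S.r s (S.X a v) p := by field_simp
      refine le_of_mul_le_mul_left ?_ x0
      nlinarith
    have h3 := sum_le_sum fun a (_ : a ∈ univ) => h2 a
    simp only [sum_sub_distrib, ← mul_sum] at h3
    have h4 := mul_le_mul_of_nonneg_left (S.sum_r_le (s + 1) v p) (half_pos hδ).le
    have h5 := mul_le_mul_of_nonneg_left (S.sum_r_le s v p)
      (add_nonneg h0 (inv_pos.2 x0).le)
    have h6 := mul_le_mul_of_nonneg_right x1 (S.r_nonneg (s + 2) v p)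
    simp only [G_succ, T, map_add, map_sum]
    linarith

/-- the differential inequality -/
lemma lp_G_ge (s : ℕ) : ∃ C, 0 ≤ C ∧ ∀ (l : ℝ) (v f : A), 0 ≤ l → l • v - S.lp v = f → ∀ p,
    S.r (s + 1) v p - C * S.r s v p - S.r s f p ≤ S.ev p (S.lp (S.G s v v)) := by
  obtain ⟨C, h0, h1⟩ := S.T_ge s (1 / 2) (by norm_num)
  refine ⟨2 * C + 3, by positivity, fun l v f hl h p => ?_⟩
  have e : S.lp v = l • v - f := by rw [← h]; abel
  have h2 := h1 v p
  have h3 := S.r_quad s v f p (-1)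
  have h4 := S.r_nonneg s (v + (-1 : ℝ) • f) p
  have h5 := S.sq_le_r s v p
  have h6 := mul_nonneg hl (S.r_nonneg s v p)
  rw [e, map_sub, map_smul, map_sub, map_smul, smul_eq_mul] at h2
  rw [lp_G, map_add, map_mul, map_mul, map_sub, map_mul, map_ofNat]
  unfold r at *
  linarith

/-- Bernstein's estimate -/
theorem bern (s : ℕ) {ε : ℝ} (hε : 0 < ε) {M : ℝ} (hM : 0 ≤ M) : ∃ C, 0 ≤ C ∧
    ∀ (l : ℝ) (v f : A) (L : ℝ), 0 ≤ l → l • v - S.lp v = f → (∀ p, S.r s v p ≤ M) →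
      (∀ p, S.r s f p ≤ M) → (∀ p, S.r (s + 1) f p ≤ L) → ∀ p, S.r (s + 1) v p ≤ ε * L + C := by
  obtain ⟨C, h0, h1⟩ := S.lp_G_ge s
  obtain ⟨C', h0', h1'⟩ := S.lp_G_ge (s + 1)
  set B := C' + ε⁻¹ with hB
  have B0 : 0 ≤ B := by positivity
  refine ⟨ε * (B * (C * M + M)) + B * M, by positivity, fun l v f L hl h hv hf hL p => ?_⟩
  obtain ⟨q, hq, hq'⟩ := S.mx (S.G (s + 1) v v + B • S.G s v v)
  have h2 := hq p
  rw [← lp_apply, map_add, map_smul] at hq'
  simp only [map_add, map_smul, smul_eq_mul] at hq' h2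
  have h3 := mul_le_mul_of_nonneg_left (h1 l v f hl h q) B0
  have h4 := h1' l v f hl h q
  have h5 := mul_le_mul_of_nonneg_left (hv q) (mul_nonneg B0 h0)
  have h6 := mul_le_mul_of_nonneg_left (hf q) B0
  have h7 := mul_le_mul_of_nonneg_left (hv q) B0
  have h8 := mul_nonneg B0 (S.r_nonneg s v p)
  have h9 : ε⁻¹ * S.r (s + 1) v q ≤ L + B * (C * M + M) := by
    have := S.r_nonneg (s + 1 + 1) v q
    have := hL q
    have : B * S.r (s + 1) v q = C' * S.r (s + 1) v q + ε⁻¹ * S.r (s + 1) v q := by rw [hB]; ring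
    linarith
  rw [inv_mul_le_iff₀ hε] at h9
  unfold r at *
  linarith

/-- the maximum principle -/
lemma le_of_eq {l m : ℝ} {v f : A} (hl : 0 ≤ l) (h : l • v - S.lp v = f)
    (hf : ∀ p, S.ev p f ≤ m) (p : N) : l * S.ev p v ≤ m := by
  obtain ⟨q, h1, h2⟩ := S.mx v
  have h3 := hf q
  rw [← h, map_sub, map_smul, smul_eq_mul, lp_apply] at h3
  linarith [mul_le_mul_of_nonneg_left (h1 p) hl]

lemma ge_of_eq {l m : ℝ} {v f : A} (hl : 0 ≤ l) (h : l • v - S.lp v = f)
    (hf : ∀ p, m ≤ S.ev p f) (p : N) : m ≤ l * S.ev p v := by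
  have := S.le_of_eq (m := -m) (v := -v) (f := -f) hl (by rw [← h, map_neg, smul_neg]; abel)
    (fun p => by rw [map_neg]; linarith [hf p]) p
  rw [map_neg] at this
  linarith

/-- bounds for the exponential -/
lemma r_exp {ex : A → A} (h1 : ∀ u p, S.ev p (ex u) = Real.exp (S.ev p u))
    (h2 : ∀ u a, S.X a (ex u) = ex u * S.X a u) (b : ℝ) (s : ℕ) : ∀ M : ℝ, 0 ≤ M → ∃ K, 0 ≤ K ∧
      ∀ u, (∀ p, S.ev p u ≤ b) → (∀ p, S.r s u p ≤ M) → ∀ p, S.r s (ex u) p ≤ K ∧
        S.r (s + 1) (ex u) p ≤ K + 5 ^ s * K * S.r (s + 1) u p := by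
  have h0 : ∀ u, (∀ p, S.ev p u ≤ b) → ∀ p, S.ev p (ex u) ^ 2 ≤ Real.exp b ^ 2 := fun u hu p => by
    rw [h1]; gcongr; exact hu p
  have key : ∀ s K u p, S.r s (ex u) p ≤ K →
      S.r (s + 1) (ex u) p ≤ K + 5 ^ s * K * S.r (s + 1) u p := fun s K u p h => by
    have K0 := (S.r_nonneg _ _ _).trans h
    rw [S.r_succ s (ex u)]
    refine add_le_add ((S.sq_le_r s _ p).trans h) (le_trans (sum_le_sum fun a _ => ?_)
      (le_of_eq_of_le (mul_sum _ _ _).symm
        (mul_le_mul_of_nonneg_left (S.sum_r_le s u p) (by positivity))))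
    rw [h2, mul_assoc]
    exact (S.r_mul _ _ _ _).trans (mul_le_mul_of_nonneg_left
      (mul_le_mul_of_nonneg_right h (S.r_nonneg _ _ _)) (by positivity))
  induction s with
  | zero =>
    exact fun M _ => ⟨Real.exp b ^ 2, by positivity, fun u hu _ p =>
      have : S.r 0 (ex u) p ≤ Real.exp b ^ 2 := by rw [r_zero]; exact h0 u hu p
      ⟨this, key _ _ _ _ this⟩⟩
  | succ s ih =>
    intro M hM
    obtain ⟨K, K0, hK⟩ := ih M hM
    refine ⟨K + 5 ^ s * K * M, by positivity, fun u hu h p => ?_⟩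
    have : S.r (s + 1) (ex u) p ≤ K + 5 ^ s * K * M :=
      (hK u hu (fun q => (S.r_mono _ _ _).trans (h q)) p).2.trans
        (add_le_add le_rfl (mul_le_mul_of_nonneg_left (h p) (by positivity)))
    exact ⟨this, key _ _ _ _ this⟩

lemma exp_lip {a b l x y : ℝ} (hl : Real.exp b ≤ l) (hx : a ≤ x) (hxy : x ≤ y) (hy : y ≤ b) :
    0 ≤ l * y - Real.exp y - (l * x - Real.exp x) ∧
      l * y - Real.exp y - (l * x - Real.exp x) ≤ (l - Real.exp a) * (y - x) := by
  have h1 := mul_le_mul_of_nonneg_left (Real.add_one_le_exp (y - x)) (Real.exp_pos x).le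
  have h2 := mul_le_mul_of_nonneg_left (Real.add_one_le_exp (x - y)) (Real.exp_pos y).le
  rw [← Real.exp_add, add_sub_cancel] at h1 h2
  have h3 := mul_le_mul_of_nonneg_right ((Real.exp_le_exp.2 hy).trans hl) (sub_nonneg.2 hxy)
  have h4 := mul_le_mul_of_nonneg_right (Real.exp_le_exp.2 hx) (sub_nonneg.2 hxy)
  constructor <;> linarith

/-- approximate solutions of `Δ w = e ^ w - k`, with uniform bounds -/
theorem exists_seq {ex : A → A} (h1 : ∀ u p, S.ev p (ex u) = Real.exp (S.ev p u))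
    (h2 : ∀ u a, S.X a (ex u) = ex u * S.X a u)
    (res : ∀ l : ℝ, 1 ≤ l → ∀ f, ∃ v, l • v - S.lp v = f) {k : A} (hk : ∀ p, 0 < S.ev p k) :
    ∃ (w : ℕ → A) (l q D : ℝ), 0 ≤ q ∧ q < 1 ∧
      (∀ n, l • w (n + 1) - S.lp (w (n + 1)) = l • w n - ex (w n) + k) ∧
      (∀ n p, |S.ev p (w n) - S.ev p (w (n + 1))| ≤ D * q ^ n) ∧
      ∀ s, ∃ M, ∀ n p, S.r s (w n) p ≤ M := by
  obtain ⟨p₁, hp₁, -⟩ := S.mx k
  obtain ⟨p₀, hp₀, -⟩ := S.mx (-k)
  simp only [map_neg, neg_le_neg_iff] at hp₀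
  set a := Real.log (S.ev p₀ k) with ha
  set b := Real.log (S.ev p₁ k) with hb
  have ea : Real.exp a = S.ev p₀ k := Real.exp_log (hk _)
  have eb : Real.exp b = S.ev p₁ k := Real.exp_log (hk _)
  have ab : a ≤ b := Real.log_le_log (hk _) (hp₀ _)
  set l := Real.exp b + 1 with hl
  have l1 : 1 ≤ l := by linarith [Real.exp_pos b]
  have l0 : 0 < l := by linarith
  have lb : Real.exp b ≤ l := by linarith
  choose R hR using res l l1
  set F : A → A := fun u => l • u - ex u + k with hF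
  have eF : ∀ u p, S.ev p (F u) = l * S.ev p u - Real.exp (S.ev p u) + S.ev p k := fun u p => by
    simp [hF, h1]
  set w : ℕ → A := fun n => (fun u => R (F u))^[n] (algebraMap ℝ A b) with hw
  have ws : ∀ n, l • w (n + 1) - S.lp (w (n + 1)) = F (w n) := fun n => by
    simp only [hw, Function.iterate_succ_apply', hR]
  have hI : ∀ n p, a ≤ S.ev p (w n) ∧ S.ev p (w n) ≤ b := fun n => by
    induction n with
    | zero => intro p; simp [hw, ab]
    | succ n ih =>
      intro p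
      refine ⟨le_of_mul_le_mul_left (S.ge_of_eq l0.le (ws n) (fun q => ?_) p) l0,
        le_of_mul_le_mul_left (S.le_of_eq l0.le (ws n) (fun q => ?_) p) l0⟩
      · linarith [eF (w n) q, (exp_lip lb le_rfl (ih q).1 (ih q).2).1, hp₀ q]
      · linarith [eF (w n) q, (exp_lip lb (ih q).1 (ih q).2 le_rfl).1, hp₁ q]
  have q0 : 0 ≤ l - Real.exp a := by linarith [Real.exp_le_exp.2 ab]
  refine ⟨w, l, (l - Real.exp a) / l, b - a, by positivity,
    (div_lt_one l0).2 (by linarith [Real.exp_pos a]), ws, fun n => ?_, fun s => ?_⟩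
  · induction n with
    | zero =>
      intro p
      rw [pow_zero, mul_one, abs_le]
      constructor <;> linarith [hI 0 p, hI (0 + 1) p]
    | succ n ih =>
      have e : l • (w (n + 1) - w (n + 1 + 1)) - S.lp (w (n + 1) - w (n + 1 + 1)) =
          F (w n) - F (w (n + 1)) := by rw [← ws, ← ws, smul_sub, map_sub]; abel
      have h3 : ∀ q, |S.ev q (F (w n) - F (w (n + 1)))| ≤
          (l - Real.exp a) * ((b - a) * ((l - Real.exp a) / l) ^ n) := fun q => by
        refine le_trans ?_ (mul_le_mul_of_nonneg_left (ih q) q0)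
        rw [map_sub, eF, eF]
        rcases le_total (S.ev q (w n)) (S.ev q (w (n + 1))) with h | h
        · have := exp_lip lb (hI n q).1 h (hI (n + 1) q).2
          rw [abs_of_nonpos (sub_nonpos.2 h), abs_le]
          constructor <;> nlinarith [this.1, this.2, mul_nonneg q0 (sub_nonneg.2 h)]
        · have := exp_lip lb (hI (n + 1) q).1 h (hI n q).2
          rw [abs_of_nonneg (sub_nonneg.2 h), abs_le]
          constructor <;> nlinarith [this.1, this.2, mul_nonneg q0 (sub_nonneg.2 h)]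
      intro p
      have h4 := S.le_of_eq l0.le e (fun q => (abs_le.1 (h3 q)).2) p
      have h5 := S.ge_of_eq l0.le e (fun q => (abs_le.1 (h3 q)).1) p
      rw [← map_sub]
      refine le_of_mul_le_mul_left ?_ l0
      rw [← abs_of_pos l0, ← abs_mul, abs_of_pos l0, show l * ((b - a) *
        ((l - Real.exp a) / l) ^ (n + 1)) = (l - Real.exp a) * ((b - a) *
          ((l - Real.exp a) / l) ^ n) by rw [pow_succ]; field_simp]
      exact abs_le.2 ⟨h5, h4⟩
  have rF : ∀ s u p, S.r s (F u) p ≤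
      4 * (l ^ 2 * S.r s u p) + 4 * S.r s (ex u) p + 2 * S.r s k p := fun s u p => by
    have e1 := S.r_add s (l • u + (-1 : ℝ) • ex u) k p
    have e2 := S.r_add s (l • u) ((-1 : ℝ) • ex u) p
    rw [r_smul, r_smul] at e2
    rw [show F u = l • u + (-1 : ℝ) • ex u + k by simp [hF, sub_eq_add_neg]]
    linarith
  induction s with
  | zero =>
    refine ⟨a ^ 2 + b ^ 2, fun n p => ?_⟩
    rw [r_zero]
    rcases le_total 0 (S.ev p (w n)) with h | h <;> nlinarith [hI n p, sq_nonneg a, sq_nonneg b]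
  | succ s ih =>
    obtain ⟨M, hM⟩ := ih
    have M0 : 0 ≤ M := (S.r_nonneg _ _ _).trans (hM 0 p₀)
    obtain ⟨K, K0, hK⟩ := S.r_exp h1 h2 b s M M0
    obtain ⟨Mk, Mk0, hMk⟩ := S.exists_bd (s + 1) k
    obtain ⟨M₀, M₀0, hM₀⟩ := S.exists_bd (s + 1) (w 0)
    set β := 4 * l ^ 2 + 4 * (5 ^ s * K) with hβ
    have β0 : 0 < β := by positivity
    obtain ⟨C, C0, hC⟩ := S.bern s (ε := (2 * β)⁻¹) (by positivity)
      (M := M + 4 * (l ^ 2 * M) + 4 * K + 2 * Mk) (by positivity)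
    set Y := (2 * β)⁻¹ * (4 * K + 2 * Mk) + C with hY
    have Y0 : 0 ≤ Y := by positivity
    refine ⟨M₀ + 2 * Y, fun n => ?_⟩
    induction n with
    | zero => exact fun p => by linarith [hM₀ p]
    | succ n ih =>
      have hK' := hK (w n) (fun p => (hI n p).2) (hM n)
      have l2 : 0 ≤ l ^ 2 := sq_nonneg l
      intro p
      refine (hC l _ _ (4 * K + 2 * Mk + β * (M₀ + 2 * Y)) l0.le (ws n) (fun q => ?_)
        (fun q => ?_) (fun q => ?_) p).trans ?_
      · linarith [hM (n + 1) q, mul_nonneg l2 M0]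
      · linarith [rF s (w n) q, (hK' q).1, (S.r_mono _ _ _).trans (hMk q),
          mul_le_mul_of_nonneg_left (hM n q) l2]
      · have e1 := mul_le_mul_of_nonneg_left (ih q) l2
        have e2 := mul_le_mul_of_nonneg_left (ih q) (by positivity : (0 : ℝ) ≤ 5 ^ s * K)
        have e3 : β * (M₀ + 2 * Y) =
          4 * (l ^ 2 * (M₀ + 2 * Y)) + 4 * (5 ^ s * K * (M₀ + 2 * Y)) := by rw [hβ]; ring
        linarith [rF (s + 1) (w n) q, (hK' q).2, hMk q]
      · have e : (2 * β)⁻¹ * (β * (M₀ + 2 * Y)) = (M₀ + 2 * Y) / 2 := by field_simp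
        rw [mul_add, e]
        linarith

/-- uniqueness -/
theorem uniq {v w k : A} (hv : ∀ p, S.ev p (S.lp v) = Real.exp (S.ev p v) - S.ev p k)
    (hw : ∀ p, S.ev p (S.lp w) = Real.exp (S.ev p w) - S.ev p k) (p : N) :
    S.ev p v ≤ S.ev p w := by
  obtain ⟨q, h1, h2⟩ := S.mx (v - w)
  have h3 := h1 p
  rw [← lp_apply, map_sub, map_sub, hv, hw] at h2
  rw [map_sub, map_sub] at h3
  linarith [Real.exp_le_exp.1 (by linarith : Real.exp (S.ev q v) ≤ Real.exp (S.ev q w))]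

end DS

end Vale.Agent.P207Z.Pde
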