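import Vale.Agent.P207Z.Pde.Bern
import Vale.Agent.P207.H395.Res
import Vale.Agent.P207.H571.L2Reg

/-!
# P207, surfaces: the equation `Δ w = e ^ w - k` for a system of flows
-/

open Filter Topology MeasureTheory Set
open scoped InnerProductSpace

noncomputable section

set_option linter.unusedSectionVars false

namespace Vale.Agent.P207Z.Pde

open Vale.Agent.P207 Vale.Agent.P207.H395 Vale.Agent.P207.H571

lemma second_nonpos {f g : ℝ → ℝ} {c : ℝ} (h : ∀ t, f t ≤ f 0) (h1 : ∀ t, HasDerivAt f (g t) t)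
    (h2 : HasDerivAt g c 0) : c ≤ 0 := by
  by_contra hc
  have e : deriv f = g := funext fun t => (h1 t).deriv
  have hm : IsLocalMax f 0 := Eventually.of_forall h
  have h3 : IsLocalMin f 0 := isLocalMin_of_deriv_deriv_pos (by rw [e, h2.deriv]; linarith)
    hm.deriv_eq_zero (h1 0).continuousAt
  have h4 : f =ᶠ[𝓝 0] fun _ => f 0 := h3.mono fun t ht => le_antisymm (h t) ht
  have h5 := h4.deriv.deriv_eq
  rw [e, h2.deriv] at h5
  simp at h5
  linarith

variable {ι : Type} [Fintype ι] {N : Type} [TopologicalSpace N] [CompactSpace N] [Nonempty N]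
  [MeasurableSpace N] [BorelSpace N] {μ : Measure N} [IsFiniteMeasure μ] (S : NSys ι N μ)

/-- the algebraic structure of a system of flows -/
def toDS : DS ι N S.A where
  X := S.X
  c := S.c
  brk := S.brk
  ev p := (ContinuousMap.evalAlgHom ℝ ℝ p).comp S.A.val
  mx f := by
    obtain ⟨p, -, hp⟩ := isCompact_univ.exists_isMaxOn univ_nonempty
      (f : C(N, ℝ)).continuous.continuousOn
    refine ⟨p, fun q => hp (mem_univ q), ?_⟩
    rw [map_sum]
    refine Finset.sum_nonpos fun a _ => second_nonpos (fun t => ?_) (hasDerivAt_flow S a f p)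
      (S.der a (S.X a f) p)
    rw [S.zero]
    exact hp (mem_univ _)

lemma ev_eq (p : N) (f : S.A) : (toDS S).ev p f = (f : C(N, ℝ)) p := rfl

lemma X_eq {f : S.A} {a : ι} {p : N} {c : ℝ}
    (h : HasDerivAt (fun t => (f : C(N, ℝ)) (S.Φ a t p)) c 0) : (S.X a f : C(N, ℝ)) p = c :=
  (S.der a f p).unique h

/-- the exponential -/
def exC (u : C(N, ℝ)) : C(N, ℝ) := ⟨fun p => Real.exp (u p), by fun_prop⟩

lemma der_exC (v u : S.A) (a : ι) (p : N) :
    HasDerivAt (fun t => ((v : C(N, ℝ)) * exC (u : C(N, ℝ))) (S.Φ a t p))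
      ((((S.X a v + v * S.X a u : S.A) : C(N, ℝ)) * exC (u : C(N, ℝ))) p) 0 := by
  refine ((S.der a v p).mul (S.der a u p).exp).congr_deriv ?_
  simp [exC, S.zero]
  ring

variable {S}

lemma exC_mem (hC : S.CL) (u : S.A) : exC (u : C(N, ℝ)) ∈ S.A :=
  hC {f | ∃ v : S.A, f = (v : C(N, ℝ)) * exC (u : C(N, ℝ))}
    (by rintro _ ⟨v, rfl⟩ a; exact ⟨_, ⟨_, rfl⟩, der_exC S v u a⟩) _ ⟨1, by simp⟩

lemma X_exC (hC : S.CL) (u : S.A) (a : ι) :
    S.X a ⟨_, exC_mem hC u⟩ = ⟨_, exC_mem hC u⟩ * S.X a u := by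
  ext p
  have := der_exC S 1 u a p
  rw [X_eq S (f := ⟨_, exC_mem hC u⟩) (by simpa using this)]
  simp [mul_comm]

lemma interp (u : S.A) (a : ι) {h : ℝ} (hh : 0 < h) : h * ‖(S.X a u : C(N, ℝ))‖ ≤
    2 * ‖(u : C(N, ℝ))‖ + ‖(S.X a (S.X a u) : C(N, ℝ))‖ * h * h := by
  have z : ∀ f : C(N, ℝ), UC S a 0 f = f := fun f => by ext p; simp [UC, S.zero]
  have h1 : ∀ t ∈ Icc 0 h, ‖UC S a t (S.X a u) - S.X a u‖ ≤
      ‖(S.X a (S.X a u) : C(N, ℝ))‖ * h := fun t ht => by
    have := norm_image_sub_le_of_norm_deriv_le_segment' (a := 0) (b := h)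
      (fun t _ => (hasDerivAt_UC S a (S.X a u) t).hasDerivWithinAt)
      (fun t _ => norm_UC_le S a t _) t ht
    rw [z, sub_zero] at this
    exact this.trans (mul_le_mul_of_nonneg_left ht.2 (norm_nonneg _))
  have h2 := norm_image_sub_le_of_norm_deriv_le_segment' (a := 0) (b := h)
    (fun t _ => ((hasDerivAt_UC S a u t).sub
      ((hasDerivAt_id t).smul_const (S.X a u : C(N, ℝ)))).hasDerivWithinAt)
    (fun t ht => by rw [one_smul]; exact h1 t (Ico_subset_Icc_self ht)) h ⟨hh.le, le_rfl⟩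
  simp only [Pi.sub_apply, id, z, zero_smul, sub_zero] at h2
  have h3 := norm_UC_le S a h (u : C(N, ℝ))
  have h4 := norm_sub_le (UC S a h u - u) (UC S a h u - h • (S.X a u : C(N, ℝ)) - u)
  rw [show UC S a h u - u - (UC S a h u - h • (S.X a u : C(N, ℝ)) - u) =
    h • (S.X a u : C(N, ℝ)) by abel, norm_smul, Real.norm_of_nonneg hh.le] at h4
  linarith [norm_sub_le (UC S a h u) u]

variable (S) in
/-- sequences with bounded derivatives which converge uniformly -/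
def Good (v : ℕ → S.A) : Prop :=
  (∀ s, ∃ M, ∀ n p, (toDS S).r s (v n) p ≤ M) ∧ CauchySeq fun n => (v n : C(N, ℝ))

lemma Good.X {v : ℕ → S.A} (h : Good S v) (a : ι) : Good S fun n => S.X a (v n) := by
  refine ⟨fun s => (h.1 (s + 1)).imp fun M hM n p => ((toDS S).r_X_le s a _ p).trans (hM n p), ?_⟩
  obtain ⟨M, hM⟩ := h.1 2
  have hb : ∀ n, ‖(S.X a (S.X a (v n)) : C(N, ℝ))‖ ≤ |M| + 1 := fun n =>
    (ContinuousMap.norm_le _ (by positivity)).2 fun p => by
      have h1 := (((toDS S).sq_le_r 0 _ p).trans ((toDS S).r_X_le 0 a _ p)).trans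
        (((toDS S).r_X_le 1 a _ p).trans ((hM n p).trans (le_abs_self M)))
      refine abs_le_of_sq_le_sq' (h1.trans ?_) (by positivity) |> abs_le.2
      nlinarith [abs_nonneg M]
  have hc := h.2
  rw [Metric.cauchySeq_iff] at hc ⊢
  intro ε hε
  set t := ε / (4 * (|M| + 1)) with ht
  have t0 : 0 < t := by positivity
  have t1 : (|M| + 1) * t = ε / 4 := by rw [ht]; field_simp
  refine (hc (ε * t / 4) (by positivity)).imp fun K hK m hm n hn => ?_
  have h1 := hK m hm n hn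
  have h2 := interp (v m - v n) a t0
  have h3 := (norm_sub_le _ _).trans (add_le_add (hb m) (hb n))
  rw [dist_eq_norm] at h1 ⊢
  simp only [map_sub, AddSubgroupClass.coe_sub] at h2
  refine lt_of_mul_lt_mul_left ?_ t0.le
  nlinarith [mul_le_mul_of_nonneg_right h3 (mul_pos t0 t0).le]

lemma der_lim {v : ℕ → S.A} {f f' : C(N, ℝ)} {a : ι}
    (h : Tendsto (fun n => (v n : C(N, ℝ))) atTop (𝓝 f))
    (h' : Tendsto (fun n => (S.X a (v n) : C(N, ℝ))) atTop (𝓝 f')) (p : N) :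
    HasDerivAt (fun t => f (S.Φ a t p)) (f' p) 0 := by
  have := hasDerivAt_of_tendstoUniformly
    ((ContinuousMap.tendsto_iff_tendstoUniformly.1 h').comp fun t => S.Φ a t p)
    (Eventually.of_forall fun n t => hasDerivAt_flow S a (v n) p t)
    (fun t => ((continuous_eval_const (S.Φ a t p)).tendsto f).comp h) 0
  simpa [S.zero] using this

lemma Good.lim (hC : S.CL) {v : ℕ → S.A} (h : Good S v) : ∃ u : S.A,
    Tendsto (fun n => (v n : C(N, ℝ))) atTop (𝓝 u) ∧
      ∀ a, Tendsto (fun n => (S.X a (v n) : C(N, ℝ))) atTop (𝓝 (S.X a u : C(N, ℝ))) := by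
  obtain ⟨f, hf⟩ := cauchySeq_tendsto_of_complete h.2
  have hA : f ∈ S.A := hC {f | ∃ v, Good S v ∧ Tendsto (fun n => (v n : C(N, ℝ))) atTop (𝓝 f)}
    (by
      rintro f ⟨v, h1, h2⟩ a
      obtain ⟨f', h3⟩ := cauchySeq_tendsto_of_complete (h1.X a).2
      exact ⟨f', ⟨_, h1.X a, h3⟩, der_lim h2 h3⟩) f ⟨v, h, hf⟩
  refine ⟨⟨f, hA⟩, hf, fun a => ?_⟩
  obtain ⟨f', h3⟩ := cauchySeq_tendsto_of_complete (h.X a).2
  rwa [show (S.X a ⟨f, hA⟩ : C(N, ℝ)) = f' from
    ContinuousMap.ext fun p => X_eq S (der_lim hf h3 p)]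

variable [T2Space N] [μ.WeaklyRegular] [μ.IsOpenPosMeasure]

lemma exists_res (hS : S.Loc) (hC : S.CL) (l : ℝ) (hl : 1 ≤ l) (f : S.A) :
    ∃ v, l • v - (toDS S).lp v = f := by
  have hB : Pos ((l - 1) • (1 : Lp ℝ 2 μ →L[ℝ] Lp ℝ 2 μ)) :=
    ⟨fun u v => by simp [inner_smul_left, inner_smul_right], fun u => by
      simpa [inner_smul_left] using mul_nonneg (sub_nonneg.2 hl) (sq_nonneg ‖u‖)⟩
  have hT := (toHSys S).T.smul_mem (toHSys S).T.one_mem (l - 1)
  have h := (toHSys S).lap_resA (reg_of_loc_cl S hS hC) hB hT (cls S f)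
  obtain ⟨v, hv⟩ := exists_cls S ((toHSys S).resA (reg_of_loc_cl S hS hC) hB hT (cls S f))
  rw [← hv] at h
  refine ⟨v, (cls S).injective (Subtype.ext ?_)⟩
  have h2 := ((toHSys S).coe_lap hT (cls S v)).symm.trans (congrArg Subtype.val h)
  simp only [toHSys_X] at h2
  rw [← h2, DS.lp_apply, map_sub, map_smul, map_sum]
  simp only [toDS, AddSubgroupClass.coe_sub, SetLike.val_smul, AddSubmonoidClass.coe_finsetSum]
  rw [show ∀ x : Lp ℝ 2 μ, ((l - 1) • (1 : Lp ℝ 2 μ →L[ℝ] Lp ℝ 2 μ)) x = (l - 1) • x from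
    fun _ => rfl, sub_smul, one_smul]
  abel

/-- **the solution** -/
theorem exists_sol (hS : S.Loc) (hC : S.CL) {k : S.A} (hk : ∀ p, 0 < (k : C(N, ℝ)) p) :
    ∃ w : S.A, ∀ p, (toDS S).ev p ((toDS S).lp w) =
      Real.exp ((toDS S).ev p w) - (toDS S).ev p k := by
  obtain ⟨w, l, q, D, q0, q1, h1, h2, h3⟩ := (toDS S).exists_seq
    (ex := fun u => ⟨_, exC_mem hC u⟩) (fun _ _ => rfl) (X_exC hC) (exists_res hS hC) hk
  have D0 : ∀ n, 0 ≤ D * q ^ n := fun n => (abs_nonneg _).trans (h2 n (Classical.arbitrary N))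
  have hG : Good S w := ⟨h3, cauchySeq_of_le_geometric q D q1 fun n =>
    (ContinuousMap.dist_le (D0 n)).2 (h2 n)⟩
  obtain ⟨u, h4, h5⟩ := hG.lim hC
  refine ⟨u, fun p => ?_⟩
  have ev : ∀ {v : ℕ → S.A} {u : S.A}, Tendsto (fun n => (v n : C(N, ℝ))) atTop (𝓝 u) →
      Tendsto (fun n => (toDS S).ev p (v n)) atTop (𝓝 ((toDS S).ev p u)) := fun h =>
    ((continuous_eval_const p).tendsto _).comp h
  have h6 : Tendsto (fun n => (toDS S).ev p ((toDS S).lp (w n))) atTop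
      (𝓝 ((toDS S).ev p ((toDS S).lp u))) := by
    simp only [DS.lp_apply, map_sum]
    refine tendsto_finsetSum _ fun a _ => ?_
    obtain ⟨u', h6, h7⟩ := (hG.X a).lim hC
    rw [show u' = S.X a u from Subtype.ext (tendsto_nhds_unique h6 (h5 a))] at h7
    exact ev (h7 a)
  have h7 := (((ev h4).const_mul l).sub h6).comp (tendsto_add_atTop_nat 1)
  have h8 := (((ev h4).const_mul l).sub (ev h4).rexp).add_const ((toDS S).ev p k)
  have h9 := tendsto_nhds_unique h7 (h8.congr fun n => by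
    have := congrArg ((toDS S).ev p) (h1 n)
    exact this.symm)
  linarith

end Vale.Agent.P207Z.Pde
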